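import Mathlib

/-!
# A normed model of the Grassmann algebra: creation operators on the fermionic Fock space
-/

set_option linter.unusedSectionVars false

open Finset

noncomputable section

namespace Vale.Agent.P184Z.Pf

variable {ι : Type*} [LinearOrder ι]

/-- The sign of `i` relative to the finite set `I`. -/
def sg (i : ι) (I : Finset ι) : ℝ := (-1) ^ (I.filter (· < i)).card

theorem sg_mul_self (i : ι) (I : Finset ι) : sg i I * sg i I = 1 := by
  rw [sg, ← mul_pow]; simp

theorem abs_sg (i : ι) (I : Finset ι) : |sg i I| = 1 := by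
  rw [sg, abs_pow]; simp

theorem sg_empty (i : ι) : sg i ∅ = 1 := by simp [sg]

theorem sg_insert_self (i : ι) (I : Finset ι) : sg i (insert i I) = sg i I := by
  unfold sg
  rw [filter_insert, if_neg (lt_irrefl i)]

theorem sg_erase_self (i : ι) (I : Finset ι) : sg i (I.erase i) = sg i I := by
  unfold sg
  congr 2
  ext x
  simp only [mem_filter, mem_erase]
  exact ⟨fun h => ⟨h.1.2, h.2⟩, fun h => ⟨⟨h.2.ne, h.1⟩, h.2⟩⟩

theorem sg_insert {i j : ι} {I : Finset ι} (hj : j ∉ I) :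
    sg i (insert j I) = if j < i then -sg i I else sg i I := by
  unfold sg
  rw [filter_insert]
  split_ifs with h
  · rw [card_insert_of_notMem (fun h' => hj (mem_filter.1 h').1), pow_succ]; ring
  · rfl

theorem sg_erase {i j : ι} {I : Finset ι} (hj : j ∈ I) :
    sg i (I.erase j) = if j < i then -sg i I else sg i I := by
  have h := sg_insert (i := i) (notMem_erase j I)
  rw [insert_erase hj] at h
  split_ifs with h1
  · rw [if_pos h1] at h; rw [h]; ring
  · rw [if_neg h1] at h; exact h.symm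

theorem sg_swap_erase {i j : ι} {I : Finset ι} (hij : i ≠ j) (hi : i ∈ I) (hj : j ∈ I) :
    sg i I * sg j (I.erase i) = -(sg j I * sg i (I.erase j)) := by
  rw [sg_erase hi, sg_erase hj]
  rcases lt_or_gt_of_ne hij with h | h
  · rw [if_pos h, if_neg (not_lt.2 h.le)]; ring
  · rw [if_neg (not_lt.2 h.le), if_pos h]; ring

theorem sg_swap_mix {i j : ι} {I : Finset ι} (hij : i ≠ j) (hi : i ∉ I) (hj : j ∈ I) :
    sg i I * sg j (insert i I) = -(sg j I * sg i (I.erase j)) := by
  rw [sg_insert hi, sg_erase hj]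
  rcases lt_or_gt_of_ne hij with h | h
  · rw [if_pos h, if_neg (not_lt.2 h.le)]; ring
  · rw [if_neg (not_lt.2 h.le), if_pos h]; ring

section mod

variable {E : Type*} [NormedAddCommGroup E] [NormedSpace ℝ E]

/-- The creation operator on `E`-valued Fock vectors. -/
def crE (E : Type*) [NormedAddCommGroup E] [NormedSpace ℝ E] (i : ι) :
    (Finset ι → E) →L[ℝ] (Finset ι → E) :=
  ContinuousLinearMap.pi fun I =>
    if i ∈ I then sg i I • ContinuousLinearMap.proj (R := ℝ) (φ := fun _ => E) (I.erase i) else 0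

/-- The annihilation operator on `E`-valued Fock vectors. -/
def anE (E : Type*) [NormedAddCommGroup E] [NormedSpace ℝ E] (i : ι) :
    (Finset ι → E) →L[ℝ] (Finset ι → E) :=
  ContinuousLinearMap.pi fun I =>
    if i ∈ I then 0 else sg i I • ContinuousLinearMap.proj (R := ℝ) (φ := fun _ => E) (insert i I)

theorem crE_apply (i : ι) (ψ : Finset ι → E) (I : Finset ι) :
    crE E i ψ I = if i ∈ I then sg i I • ψ (I.erase i) else 0 := by
  unfold crE
  rw [ContinuousLinearMap.pi_apply]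
  split_ifs <;> simp

theorem anE_apply (i : ι) (ψ : Finset ι → E) (I : Finset ι) :
    anE E i ψ I = if i ∈ I then 0 else sg i I • ψ (insert i I) := by
  unfold anE
  rw [ContinuousLinearMap.pi_apply]
  split_ifs <;> simp

theorem crE_crE (i j : ι) (ψ : Finset ι → E) : crE E i (crE E j ψ) = -crE E j (crE E i ψ) := by
  funext I
  simp only [crE_apply, Pi.neg_apply, mem_erase]
  by_cases hij : i = j
  · subst hij
    simp
  by_cases hi : i ∈ I
  · by_cases hj : j ∈ I
    · simp only [hi, hj, if_true, ne_eq, hij, Ne.symm hij, not_false_eq_true, and_self, smul_smul]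
      rw [sg_swap_erase hij hi hj, erase_right_comm, neg_smul]
    · simp [hi, hj]
  · simp [hi]

theorem anE_crE (i j : ι) (ψ : Finset ι → E) :
    anE E i (crE E j ψ) + crE E j (anE E i ψ) = if i = j then ψ else 0 := by
  funext I
  simp only [crE_apply, anE_apply, Pi.add_apply, mem_erase, mem_insert]
  by_cases hij : i = j
  · subst hij
    by_cases hi : i ∈ I
    · simp only [hi, if_true, ne_eq, not_true_eq_false, false_and, if_false, zero_add, smul_smul]
      rw [sg_erase_self, sg_mul_self, one_smul, insert_erase hi]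
    · simp only [hi, if_false, true_or, if_true, add_zero, smul_smul]
      rw [sg_insert_self, sg_mul_self, one_smul, erase_insert hi]
  · rw [if_neg hij, Pi.zero_apply]
    by_cases hi : i ∈ I
    · simp [hi, hij]
    · by_cases hj : j ∈ I
      · simp only [hi, hj, if_false, or_true, if_true, and_false, smul_smul]
        rw [sg_swap_mix hij hi hj, erase_insert_of_ne hij, neg_smul, neg_add_cancel]
      · simp [hi, hj, Ne.symm hij]

end mod

variable [Fintype ι]

/-- The fermionic Fock space. -/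
def Fk (ι : Type*) := EuclideanSpace ℝ (Finset ι)

instance : NormedAddCommGroup (Fk ι) :=
  inferInstanceAs (NormedAddCommGroup (EuclideanSpace ℝ (Finset ι)))

instance : InnerProductSpace ℝ (Fk ι) :=
  inferInstanceAs (InnerProductSpace ℝ (EuclideanSpace ℝ (Finset ι)))

instance : FiniteDimensional ℝ (Fk ι) :=
  inferInstanceAs (FiniteDimensional ℝ (EuclideanSpace ℝ (Finset ι)))

instance : CompleteSpace (Fk ι) := FiniteDimensional.complete ℝ _

/-- The coefficients of a Fock vector. -/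
def co : Fk ι ≃L[ℝ] (Finset ι → ℝ) := EuclideanSpace.equiv (Finset ι) ℝ

theorem Fk.ext {ψ φ : Fk ι} (h : ∀ I, co ψ I = co φ I) : ψ = φ := co.injective (funext h)

theorem inner_eq (ψ φ : Fk ι) : inner ℝ ψ φ = ∑ I, co ψ I * co φ I := by
  have h := PiLp.inner_apply (𝕜 := ℝ) (f := fun _ : Finset ι => ℝ) ψ φ
  refine h.trans (sum_congr rfl fun I _ => ?_)
  exact mul_comm _ _

theorem norm_sq_eq (ψ : Fk ι) : ‖ψ‖ ^ 2 = ∑ I, co ψ I ^ 2 := by
  rw [← real_inner_self_eq_norm_sq, inner_eq]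
  simp only [sq]

theorem abs_co_le (ψ : Fk ι) (I : Finset ι) : |co ψ I| ≤ ‖ψ‖ := by
  refine abs_le_of_sq_le_sq' ?_ (norm_nonneg _) |>.2
  rw [norm_sq_eq, sq_abs]
  exact single_le_sum (f := fun I => co ψ I ^ 2) (fun _ _ => sq_nonneg _) (mem_univ I)

/-- The operators on the Fock space: a complete normed algebra. -/
def Car (ι : Type*) [Fintype ι] := Fk ι →L[ℝ] Fk ι

instance : NormedRing (Car ι) := inferInstanceAs (NormedRing (Fk ι →L[ℝ] Fk ι))

instance : NormedAlgebra ℝ (Car ι) := inferInstanceAs (NormedAlgebra ℝ (Fk ι →L[ℝ] Fk ι))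

instance : FiniteDimensional ℝ (Car ι) :=
  inferInstanceAs (FiniteDimensional ℝ (Fk ι →L[ℝ] Fk ι))

instance : CompleteSpace (Car ι) := FiniteDimensional.complete ℝ _

/-- The action of an operator. -/
def ap : Car ι ≃L[ℝ] (Fk ι →L[ℝ] Fk ι) := ContinuousLinearEquiv.refl ℝ (Fk ι →L[ℝ] Fk ι)

theorem ap_mul (x y : Car ι) (ψ : Fk ι) : ap (x * y) ψ = ap x (ap y ψ) := rfl

theorem ap_one (ψ : Fk ι) : ap (1 : Car ι) ψ = ψ := rfl

theorem norm_ap (x : Car ι) : ‖ap x‖ = ‖x‖ := rfl

theorem norm_ap_le (x : Car ι) (ψ : Fk ι) : ‖ap x ψ‖ ≤ ‖x‖ * ‖ψ‖ := (ap x).le_opNorm ψ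

theorem Car.ext {x y : Car ι} (h : ∀ ψ, ap x ψ = ap y ψ) : x = y :=
  ap.injective (ContinuousLinearMap.ext h)

theorem Car.norm_le {x : Car ι} {C : ℝ} (hC : 0 ≤ C) (h : ∀ ψ, ‖ap x ψ‖ ≤ C * ‖ψ‖) : ‖x‖ ≤ C :=
  (ap x).opNorm_le_bound hC h

theorem Car.norm_one_le : ‖(1 : Car ι)‖ ≤ 1 :=
  Car.norm_le zero_le_one fun ψ => by rw [ap_one, one_mul]

/-- An operator given on coefficients. -/
def ofCo (T : (Finset ι → ℝ) →L[ℝ] (Finset ι → ℝ)) : Car ι :=
  ap.symm ((co (ι := ι)).symm.toContinuousLinearMap ∘L T ∘L (co (ι := ι)).toContinuousLinearMap)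

theorem co_ofCo (T : (Finset ι → ℝ) →L[ℝ] (Finset ι → ℝ)) (ψ : Fk ι) :
    co (ap (ofCo T) ψ) = T (co ψ) := rfl

/-- The vacuum vector. -/
def vac : Fk ι := co.symm fun I => if I = ∅ then 1 else 0

theorem co_vac (I : Finset ι) : co (vac : Fk ι) I = if I = ∅ then 1 else 0 := rfl

theorem norm_vac : ‖(vac : Fk ι)‖ = 1 := by
  refine (sq_eq_sq₀ (norm_nonneg _) zero_le_one).1 ?_
  rw [norm_sq_eq, sum_eq_single ∅] <;> simp +contextual [co_vac]

instance : NormOneClass (Car ι) :=
  ⟨le_antisymm Car.norm_one_le (by simpa [ap_one, norm_vac] using norm_ap_le (1 : Car ι) vac)⟩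

/-- The Fock vector of an operator. -/
def ev : Car ι →L[ℝ] Fk ι := ContinuousLinearMap.apply ℝ (Fk ι) vac ∘L ap.toContinuousLinearMap

theorem ev_apply (x : Car ι) : ev x = ap x vac := rfl

theorem ev_mul (x y : Car ι) : ev (x * y) = ap x (ev y) := rfl

theorem ev_one : ev (1 : Car ι) = vac := rfl

theorem norm_ev_mul_le (x y : Car ι) : ‖ev (x * y)‖ ≤ ‖x‖ * ‖ev y‖ := norm_ap_le x _

theorem norm_ev_le (x : Car ι) : ‖ev x‖ ≤ ‖x‖ := by
  simpa [norm_vac, ev_apply] using norm_ap_le x vac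

/-- The coefficient of top degree (Berezin integral). -/
def top : Car ι →L[ℝ] ℝ :=
  ContinuousLinearMap.proj (R := ℝ) (φ := fun _ : Finset ι => ℝ) univ ∘L
    co.toContinuousLinearMap ∘L ev

theorem top_apply (x : Car ι) : top x = co (ev x) univ := rfl

theorem abs_top_le_ev (x : Car ι) : |top x| ≤ ‖ev x‖ := abs_co_le _ _

theorem abs_top_le (x : Car ι) : |top x| ≤ ‖x‖ := (abs_top_le_ev x).trans (norm_ev_le x)

theorem abs_top_mul_le (x y : Car ι) : |top (x * y)| ≤ ‖x‖ * ‖ev y‖ :=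
  (abs_top_le_ev _).trans (norm_ev_mul_le x y)

/-- The creation operator. -/
def cr (i : ι) : Car ι := ofCo (crE ℝ i)

/-- The annihilation operator. -/
def an (i : ι) : Car ι := ofCo (anE ℝ i)

theorem co_cr (i : ι) (ψ : Fk ι) (I : Finset ι) :
    co (ap (cr i) ψ) I = if i ∈ I then sg i I * co ψ (I.erase i) else 0 :=
  crE_apply i (co ψ) I

theorem co_an (i : ι) (ψ : Fk ι) (I : Finset ι) :
    co (ap (an i) ψ) I = if i ∈ I then 0 else sg i I * co ψ (insert i I) :=
  anE_apply i (co ψ) I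

theorem cr_mul_cr (i j : ι) : cr i * cr j = -(cr j * cr i : Car ι) :=
  Car.ext fun ψ => Fk.ext fun I => congrFun (crE_crE i j (co ψ)) I

theorem an_mul_cr (i j : ι) : an i * cr j + cr j * an i = if i = j then (1 : Car ι) else 0 := by
  refine Car.ext fun ψ => Fk.ext fun I => ?_
  have h := congrFun (anE_crE i j (co ψ)) I
  split_ifs at h ⊢ with hij
  · exact h
  · exact h

theorem inner_cr (i : ι) (ψ φ : Fk ι) : inner ℝ (ap (cr i) ψ) φ = inner ℝ ψ (ap (an i) φ) := by
  simp only [inner_eq, co_cr, co_an]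
  have h1 : ∑ I : Finset ι, (if i ∈ I then sg i I * co ψ (I.erase i) else 0) * co φ I =
      ∑ I ∈ univ.filter (fun I : Finset ι => i ∈ I), (sg i I * co ψ (I.erase i)) * co φ I := by
    rw [sum_filter]
    exact sum_congr rfl fun I _ => by split_ifs <;> simp
  have h2 : ∑ I : Finset ι, co ψ I * (if i ∈ I then 0 else sg i I * co φ (insert i I)) =
      ∑ I ∈ univ.filter (fun I : Finset ι => i ∉ I), co ψ I * (sg i I * co φ (insert i I)) := by
    rw [sum_filter]
    exact sum_congr rfl fun I _ => by split_ifs <;> simp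
  rw [h1, h2]
  refine sum_nbij' (fun I => I.erase i) (fun I => insert i I) ?_ ?_ ?_ ?_ ?_
  · intro I _; simp
  · intro I _; simp
  · intro I hI; exact insert_erase (by simpa using hI)
  · intro I hI; exact erase_insert (by simpa using hI)
  · intro I hI
    have hi : i ∈ I := by simpa using hI
    rw [insert_erase hi, sg_erase_self]; ring

/-- The creation operator of a vector (exterior multiplication). -/
def cv : (ι → ℝ) →L[ℝ] Car ι :=
  ∑ i, (ContinuousLinearMap.proj (R := ℝ) (φ := fun _ : ι => ℝ) i).smulRight (cr i)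

/-- The annihilation operator of a vector (contraction). -/
def av : (ι → ℝ) →L[ℝ] Car ι :=
  ∑ i, (ContinuousLinearMap.proj (R := ℝ) (φ := fun _ : ι => ℝ) i).smulRight (an i)

theorem cv_eq (a : ι → ℝ) : cv a = ∑ i, a i • cr i := by simp [cv]

theorem av_eq (a : ι → ℝ) : av a = ∑ i, a i • an i := by simp [av]

theorem cv_single (i : ι) : cv (Pi.single i (1 : ℝ)) = cr i := by
  rw [cv_eq, sum_eq_single i] <;> simp +contextual

theorem av_single (i : ι) : av (Pi.single i (1 : ℝ)) = an i := by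
  rw [av_eq, sum_eq_single i] <;> simp +contextual

theorem cv_mul_cv (a b : ι → ℝ) : cv a * cv b = -(cv b * cv a) := by
  simp only [cv_eq, sum_mul_sum, smul_mul_smul_comm]
  rw [sum_comm, ← sum_neg_distrib]
  refine sum_congr rfl fun j _ => ?_
  rw [← sum_neg_distrib]
  refine sum_congr rfl fun i _ => ?_
  rw [cr_mul_cr i j, mul_comm (b j), smul_neg]

theorem cv_mul_self (a : ι → ℝ) : cv a * cv a = 0 := by
  have h := cv_mul_cv a a
  have h2 : (2 : ℝ) • (cv a * cv a) = 0 := by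
    rw [two_smul]; nth_rewrite 1 [h]; exact neg_add_cancel _
  exact (smul_eq_zero.1 h2).resolve_left two_ne_zero

theorem cr_mul_self (i : ι) : cr i * cr i = (0 : Car ι) := by
  rw [← cv_single]; exact cv_mul_self _

theorem av_mul_cv (a b : ι → ℝ) :
    av a * cv b + cv b * av a = (∑ i, a i * b i) • (1 : Car ι) := by
  simp only [cv_eq, av_eq, sum_mul_sum, smul_mul_smul_comm]
  rw [sum_comm (s := univ) (t := univ) (f := fun j i => (b j * a i) • (cr j * an i)),
    ← sum_add_distrib, sum_smul]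
  refine sum_congr rfl fun i _ => ?_
  rw [← sum_add_distrib]
  have h : ∀ j, (a i * b j) • (an i * cr j) + (b j * a i) • (cr j * an i) =
      if i = j then (a i * b j) • (1 : Car ι) else 0 := by
    intro j
    rw [mul_comm (b j), ← smul_add, an_mul_cr]
    split_ifs <;> simp
  simp only [h, sum_ite_eq, mem_univ, if_true]

theorem inner_cv (a : ι → ℝ) (ψ φ : Fk ι) :
    inner ℝ (ap (cv a) ψ) φ = inner ℝ ψ (ap (av a) φ) := by
  simp only [cv_eq, av_eq, map_sum, map_smul, _root_.sum_apply, smul_apply,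
    sum_inner, inner_sum, inner_smul_left, inner_smul_right, inner_cr, conj_trivial]

theorem norm_cv_sq_add (a : ι → ℝ) (ψ : Fk ι) :
    ‖ap (cv a) ψ‖ ^ 2 + ‖ap (av a) ψ‖ ^ 2 = (∑ i, a i ^ 2) * ‖ψ‖ ^ 2 := by
  have h1 : ‖ap (cv a) ψ‖ ^ 2 = inner ℝ ψ (ap (av a) (ap (cv a) ψ)) := by
    rw [← inner_cv, real_inner_self_eq_norm_sq]
  have h2 : ‖ap (av a) ψ‖ ^ 2 = inner ℝ ψ (ap (cv a) (ap (av a) ψ)) := by
    rw [real_inner_comm, inner_cv, real_inner_self_eq_norm_sq]
  have h3 : ap (av a) (ap (cv a) ψ) + ap (cv a) (ap (av a) ψ) = (∑ i, a i * a i) • ψ :=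
    congrArg (fun T : Car ι => ap T ψ) (av_mul_cv a a)
  rw [h1, h2, ← inner_add_right, h3, inner_smul_right, real_inner_self_eq_norm_sq]
  simp only [sq]

theorem norm_cv_apply_le (a : ι → ℝ) (ψ : Fk ι) : ‖ap (cv a) ψ‖ ≤ √(∑ i, a i ^ 2) * ‖ψ‖ := by
  have h := norm_cv_sq_add a ψ
  have h0 : 0 ≤ ∑ i, a i ^ 2 := sum_nonneg fun i _ => sq_nonneg _
  refine abs_le_of_sq_le_sq' ?_ (by positivity) |>.2
  rw [mul_pow, Real.sq_sqrt h0]
  nlinarith [sq_nonneg ‖ap (av a) ψ‖]

/-- The operator norm of exterior multiplication by `a` is at most the Euclidean norm of `a`. -/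
theorem norm_cv_le (a : ι → ℝ) : ‖cv a‖ ≤ √(∑ i, a i ^ 2) :=
  Car.norm_le (Real.sqrt_nonneg _) (norm_cv_apply_le a)

theorem norm_cr_le (i : ι) : ‖(cr i : Car ι)‖ ≤ 1 := by
  have h := norm_cv_le (Pi.single i (1 : ℝ) : ι → ℝ)
  rw [cv_single] at h
  refine h.trans (le_of_eq ?_)
  rw [sum_eq_single i] <;> simp +contextual

/-- Clifford multiplication is conformal. -/
theorem norm_cliff (a : ι → ℝ) (ψ : Fk ι) :
    ‖ap (cv a) ψ + ap (av a) ψ‖ = √(∑ i, a i ^ 2) * ‖ψ‖ := by
  have h := norm_cv_sq_add a ψ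
  have h0 : 0 ≤ ∑ i, a i ^ 2 := sum_nonneg fun i _ => sq_nonneg _
  have h1 : inner ℝ (ap (cv a) ψ) (ap (av a) ψ) = 0 := by
    rw [← inner_cv, ← ap_mul, cv_mul_self]
    simp
  refine (sq_eq_sq₀ (norm_nonneg _) (by positivity)).1 ?_
  rw [norm_add_sq_real, h1, mul_pow, Real.sq_sqrt h0, ← h]; ring

theorem an_vac (i : ι) : ap (an i) (vac : Fk ι) = 0 :=
  Fk.ext fun I => by simp [co_an, co_vac]

theorem av_vac (a : ι → ℝ) : ap (av a) (vac : Fk ι) = 0 := by
  simp [av_eq, an_vac]

theorem co_cv_empty (a : ι → ℝ) (ψ : Fk ι) : co (ap (cv a) ψ) ∅ = 0 := by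
  simp [cv_eq, co_cr]

end Vale.Agent.P184Z.Pf
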