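import Vale.Agent.P184Z.Pf.Car

/-!
# Two-forms, degrees, and change of basis in the normed Grassmann algebra
-/

set_option linter.unusedSectionVars false

open Finset MeasureTheory

noncomputable section

namespace Vale.Agent.P184Z.Pf

variable {ι : Type*} [LinearOrder ι] [Fintype ι]

/-! ## Two-forms -/

/-- The two-form of a matrix. -/
def w2 : (ι → ι → ℝ) →L[ℝ] Car ι :=
  ∑ i, (ContinuousLinearMap.mul ℝ (Car ι) (cr i)) ∘L cv ∘L
    ContinuousLinearMap.proj (R := ℝ) (φ := fun _ : ι => ι → ℝ) i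

theorem w2_eq' (M : ι → ι → ℝ) : w2 M = ∑ i, cr i * cv (M i) := by simp [w2]

theorem w2_eq (M : ι → ι → ℝ) : w2 M = ∑ i, ∑ j, M i j • (cr i * cr j) := by
  simp only [w2_eq', cv_eq, mul_sum, mul_smul_comm]

theorem cv_mul_cv_eq (a b : ι → ℝ) : cv a * cv b = w2 fun i j => a i * b j := by
  simp only [w2_eq, cv_eq, sum_mul_sum, smul_mul_smul_comm]

theorem w2_swap (M : ι → ι → ℝ) : (w2 fun i j => M j i) = -w2 M := by
  rw [w2_eq, w2_eq, sum_comm, ← sum_neg_distrib]
  refine sum_congr rfl fun i _ => ?_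
  rw [← sum_neg_distrib]
  refine sum_congr rfl fun j _ => ?_
  rw [cr_mul_cr j i, smul_neg]

theorem w2_alt (M : ι → ι → ℝ) : (w2 fun i j => M i j - M j i) = (2 : ℝ) • w2 M := by
  have h : (fun i j => M i j - M j i) = M - fun i j => M j i := rfl
  rw [h, map_sub, w2_swap M, sub_neg_eq_add, two_smul]

theorem w2_symm {M : ι → ι → ℝ} (h : ∀ i j, M i j = M j i) : w2 M = 0 := by
  have h1 := w2_alt M
  have h2 : (fun i j => M i j - M j i) = (0 : ι → ι → ℝ) := by
    funext i j; rw [h i j, sub_self]; rfl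
  rw [h2, map_zero] at h1
  exact (smul_eq_zero.1 h1.symm).resolve_left two_ne_zero

/-- A two-form only depends on the alternation of its matrix. -/
theorem w2_congr {M N : ι → ι → ℝ} (h : ∀ i j, M i j - M j i = N i j - N j i) : w2 M = w2 N := by
  have h1 : (2 : ℝ) • w2 M = (2 : ℝ) • w2 N := by
    rw [← w2_alt, ← w2_alt]; congr 1; funext i j; exact h i j
  exact smul_right_injective _ two_ne_zero h1

theorem norm_cv_mul_cv_le (a b : ι → ℝ) :
    ‖cv a * cv b‖ ≤ √(∑ i, a i ^ 2) * √(∑ i, b i ^ 2) :=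
  (norm_mul_le _ _).trans
    (mul_le_mul (norm_cv_le a) (norm_cv_le b) (norm_nonneg _) (Real.sqrt_nonneg _))

theorem norm_w2_le (M : ι → ι → ℝ) : ‖w2 M‖ ≤ ∑ i, √(∑ j, M i j ^ 2) := by
  rw [w2_eq']
  refine (norm_sum_le _ _).trans (sum_le_sum fun i _ => (norm_mul_le _ _).trans ?_)
  exact (mul_le_of_le_one_left (norm_nonneg _) (norm_cr_le i)).trans (norm_cv_le _)

theorem w2_sum_mul {X : Type*} (s : Finset X) (a b : X → ι → ℝ) :
    (w2 fun i j => ∑ x ∈ s, a x i * b x j) = ∑ x ∈ s, cv (a x) * cv (b x) := by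
  simp only [cv_mul_cv_eq, ← map_sum]
  congr 1
  funext i j
  simp only [Finset.sum_apply]

theorem norm_w2_sum_mul_le {X : Type*} (s : Finset X) (a b : X → ι → ℝ) :
    ‖w2 fun i j => ∑ x ∈ s, a x i * b x j‖ ≤
      ∑ x ∈ s, √(∑ i, a x i ^ 2) * √(∑ i, b x i ^ 2) := by
  rw [w2_sum_mul]
  exact (norm_sum_le _ _).trans (sum_le_sum fun x _ => norm_cv_mul_cv_le _ _)

theorem w2_integral {Ω : Type*} [MeasurableSpace Ω] (μ : Measure Ω) (M : Ω → ι → ι → ℝ)
    (hM : ∀ i j, Integrable (fun t => M t i j) μ) :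
    (w2 fun i j => ∫ t, M t i j ∂μ) = ∫ t, w2 (M t) ∂μ := by
  simp only [w2_eq]
  rw [integral_finsetSum _ fun i _ => integrable_finsetSum _ fun j _ => (hM i j).smul_const _]
  refine sum_congr rfl fun i _ => ?_
  rw [integral_finsetSum _ fun j _ => (hM i j).smul_const _]
  exact sum_congr rfl fun j _ => (integral_smul_const _ _).symm

theorem w2_intervalIntegral (a b : ℝ) (M : ℝ → ι → ι → ℝ)
    (hM : ∀ i j, IntervalIntegrable (fun t => M t i j) volume a b) :
    (w2 fun i j => ∫ t in a..b, M t i j) = ∫ t in a..b, w2 (M t) := by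
  simp only [intervalIntegral]
  rw [← w2_integral _ _ fun i j => (hM i j).1, ← w2_integral _ _ fun i j => (hM i j).2, ← map_sub]
  rfl

/-- Nuclear mass bounds the norm of a two-form. -/
theorem norm_w2_integral_le {X : Type*} (s : Finset X) {a b : ℝ} (hab : a ≤ b)
    (p q : X → ℝ → ι → ℝ) (hp : ∀ x ∈ s, ∀ i, Continuous fun t => p x t i)
    (hq : ∀ x ∈ s, ∀ i, Continuous fun t => q x t i) :
    ‖w2 fun i j => ∫ t in a..b, ∑ x ∈ s, p x t i * q x t j‖ ≤
      ∫ t in a..b, ∑ x ∈ s, √(∑ i, p x t i ^ 2) * √(∑ i, q x t i ^ 2) := by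
  rw [w2_intervalIntegral a b (fun t i j => ∑ x ∈ s, p x t i * q x t j) fun i j =>
    (continuous_finsetSum _ fun x hx => (hp x hx i).mul (hq x hx j)).intervalIntegrable _ _]
  refine intervalIntegral.norm_integral_le_of_norm_le hab
    (Filter.Eventually.of_forall fun t _ => norm_w2_sum_mul_le s _ _) ?_
  refine Continuous.intervalIntegrable (continuous_finsetSum _ fun x hx => ?_) _ _
  exact ((continuous_finsetSum _ fun i _ => (hp x hx i).pow 2).sqrt).mul
    ((continuous_finsetSum _ fun i _ => (hq x hx i).pow 2).sqrt)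

/-! ## Central elements -/

/-- `x` commutes with the Grassmann algebra. -/
def Cen (x : Car ι) : Prop := ∀ i, Commute x (cr i)

theorem Cen.zero : Cen (0 : Car ι) := fun _ => Commute.zero_left _

theorem Cen.one : Cen (1 : Car ι) := fun _ => Commute.one_left _

theorem Cen.add {x y : Car ι} (hx : Cen x) (hy : Cen y) : Cen (x + y) :=
  fun i => (hx i).add_left (hy i)

theorem Cen.neg {x : Car ι} (hx : Cen x) : Cen (-x) := fun i => (hx i).neg_left

theorem Cen.sub {x y : Car ι} (hx : Cen x) (hy : Cen y) : Cen (x - y) :=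
  fun i => (hx i).sub_left (hy i)

theorem Cen.mul {x y : Car ι} (hx : Cen x) (hy : Cen y) : Cen (x * y) :=
  fun i => (hx i).mul_left (hy i)

theorem Cen.smul {x : Car ι} (hx : Cen x) (c : ℝ) : Cen (c • x) := fun i => (hx i).smul_left c

theorem Cen.pow {x : Car ι} (hx : Cen x) (n : ℕ) : Cen (x ^ n) := fun i => (hx i).pow_left n

theorem Cen.sum {X : Type*} {s : Finset X} {x : X → Car ι} (hx : ∀ k ∈ s, Cen (x k)) :
    Cen (∑ k ∈ s, x k) := fun i => Commute.sum_left _ _ _ fun k hk => hx k hk i

theorem Cen.commute_cv {x : Car ι} (hx : Cen x) (a : ι → ℝ) : Commute x (cv a) := by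
  rw [cv_eq]
  exact Commute.sum_right _ _ _ fun i _ => (hx i).smul_right _

theorem Cen.commute_w2 {x : Car ι} (hx : Cen x) (M : ι → ι → ℝ) : Commute x (w2 M) := by
  rw [w2_eq']
  exact Commute.sum_right _ _ _ fun i _ => (hx i).mul_right (hx.commute_cv _)

theorem cen_cv_mul_cv (a b : ι → ℝ) : Cen (cv a * cv b) := by
  intro i
  rw [← cv_single]
  change _ * _ = _ * _
  rw [mul_assoc, cv_mul_cv b, mul_neg, ← mul_assoc, cv_mul_cv a, neg_mul, neg_neg, mul_assoc]

theorem cen_w2 (M : ι → ι → ℝ) : Cen (w2 M) := by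
  rw [w2_eq']
  exact Cen.sum fun i _ => by rw [← cv_single]; exact cen_cv_mul_cv _ _

theorem commute_w2_w2 (M N : ι → ι → ℝ) : Commute (w2 M) (w2 N) := (cen_w2 M).commute_w2 N

theorem commute_w2_cv (M : ι → ι → ℝ) (a : ι → ℝ) : Commute (w2 M) (cv a) :=
  (cen_w2 M).commute_cv a

theorem Cen.integral {Ω : Type*} [MeasurableSpace Ω] (μ : Measure Ω) {x : Ω → Car ι}
    (hx : ∀ t, Cen (x t)) : Cen (∫ t, x t ∂μ) := by
  intro i
  by_cases h : Integrable x μ
  · have h1 := (ContinuousLinearMap.mul ℝ (Car ι) (cr i)).integral_comp_comm h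
    have h2 := ((ContinuousLinearMap.mul ℝ (Car ι)).flip (cr i)).integral_comp_comm h
    simp only [ContinuousLinearMap.mul_apply', ContinuousLinearMap.flip_apply] at h1 h2
    change _ * _ = _ * _
    rw [← h1, ← h2]
    exact integral_congr_ae (Filter.Eventually.of_forall fun t => (hx t i).eq)
  · rw [integral_undef h]; exact Commute.zero_left _

theorem Cen.intervalIntegral (a b : ℝ) {x : ℝ → Car ι} (hx : ∀ t, Cen (x t)) :
    Cen (∫ t in a..b, x t) := (Cen.integral _ hx).sub (Cen.integral _ hx)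

/-- A sum of `r` wedges is nilpotent of order `r + 1`. -/
theorem sum_wedge_pow {X : Type*} (s : Finset X) (p q : X → ι → ℝ) :
    (∑ x ∈ s, cv (p x) * cv (q x)) ^ (s.card + 1) = 0 := by
  classical
  induction s using Finset.induction_on with
  | empty => simp
  | insert x s hx ih =>
    rw [sum_insert hx, card_insert_of_notMem hx]
    have h1 : (cv (p x) * cv (q x)) ^ 2 = 0 := by
      rw [sq, mul_assoc, ← mul_assoc (cv (q x)), cv_mul_cv (q x) (p x), neg_mul, mul_neg,
        ← mul_assoc, ← mul_assoc, cv_mul_self]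
      simp
    refine Commute.add_pow_eq_zero_of_add_le_succ_of_pow_eq_zero ?_ h1 ih (by omega)
    rw [← w2_sum_mul]
    exact (cen_cv_mul_cv _ _).commute_w2 _

/-! ## Degrees -/

/-- A Fock vector of pure degree `k`. -/
def Hom (k : ℕ) (ψ : Fk ι) : Prop := ∀ I : Finset ι, I.card ≠ k → co ψ I = 0

/-- An operator which raises the degree by `k`. -/
def Deg (k : ℕ) (x : Car ι) : Prop := ∀ j ψ, Hom j ψ → Hom (j + k) (ap x ψ)

theorem hom_vac : Hom 0 (vac : Fk ι) := fun I hI => by
  rw [co_vac, if_neg]; rintro rfl; exact hI rfl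

theorem Deg.hom_ev {k : ℕ} {x : Car ι} (hx : Deg k x) : Hom k (ev x) := by
  simpa [ev_apply] using hx 0 vac hom_vac

theorem Deg.top_eq_zero {k : ℕ} {x : Car ι} (hx : Deg k x) (hk : k ≠ Fintype.card ι) :
    top x = 0 := hx.hom_ev univ fun h => hk (by rw [← h, card_univ])

theorem Deg.zero (k : ℕ) : Deg k (0 : Car ι) := fun _ _ _ I _ => by simp

theorem Deg.one : Deg 0 (1 : Car ι) := fun _ _ h => h

theorem Deg.add {k : ℕ} {x y : Car ι} (hx : Deg k x) (hy : Deg k y) : Deg k (x + y) :=
  fun j ψ h I hI => by simp [hx j ψ h I hI, hy j ψ h I hI]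

theorem Deg.smul {k : ℕ} {x : Car ι} (hx : Deg k x) (c : ℝ) : Deg k (c • x) :=
  fun j ψ h I hI => by simp [hx j ψ h I hI]

theorem Deg.neg {k : ℕ} {x : Car ι} (hx : Deg k x) : Deg k (-x) :=
  fun j ψ h I hI => by simp [hx j ψ h I hI]

theorem Deg.sub {k : ℕ} {x y : Car ι} (hx : Deg k x) (hy : Deg k y) : Deg k (x - y) :=
  fun j ψ h I hI => by simp [hx j ψ h I hI, hy j ψ h I hI]

theorem Deg.mul {k l : ℕ} {x y : Car ι} (hx : Deg k x) (hy : Deg l y) : Deg (k + l) (x * y) :=
  fun j ψ h => by
    have := hx _ _ (hy j ψ h)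
    rwa [add_assoc, add_comm l k] at this

theorem Deg.sum {X : Type*} {s : Finset X} {k : ℕ} {x : X → Car ι} (hx : ∀ a ∈ s, Deg k (x a)) :
    Deg k (∑ a ∈ s, x a) :=
  Finset.sum_induction _ (Deg k) (fun _ _ => Deg.add) (Deg.zero k) hx

theorem Deg.pow {k : ℕ} {x : Car ι} (hx : Deg k x) (n : ℕ) : Deg (k * n) (x ^ n) := by
  induction n with
  | zero => simpa using Deg.one
  | succ n ih => rw [pow_succ, mul_add, mul_one]; exact ih.mul hx

theorem deg_cr (i : ι) : Deg 1 (cr i) := fun j ψ h I hI => by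
  rw [co_cr]
  split_ifs with hi
  · rw [h, mul_zero]
    rw [card_erase_of_mem hi]
    have := card_pos.2 ⟨i, hi⟩
    omega
  · rfl

theorem deg_cv (a : ι → ℝ) : Deg 1 (cv a) := by
  rw [cv_eq]; exact Deg.sum fun i _ => (deg_cr i).smul _

theorem deg_w2 (M : ι → ι → ℝ) : Deg 2 (w2 M) := by
  rw [w2_eq']; exact Deg.sum fun i _ => (deg_cr i).mul (deg_cv _)

theorem Deg.eq_zero {k : ℕ} {x : Car ι} (hx : Deg k x) (hk : Fintype.card ι < k) : x = 0 := by
  refine Car.ext fun ψ => ?_
  have h1 : ψ = ∑ J : Finset ι, (co.symm (Pi.single J (co ψ J)) : Fk ι) := by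
    rw [← map_sum, univ_sum_single, ContinuousLinearEquiv.symm_apply_apply]
  rw [h1, map_sum, map_sum]
  refine sum_congr rfl fun J _ => Fk.ext fun I => ?_
  have h2 : Hom J.card (co.symm (Pi.single J (co ψ J)) : Fk ι) := fun K hK => by
    rw [ContinuousLinearEquiv.apply_symm_apply, Pi.single_apply, if_neg]
    rintro rfl; exact hK rfl
  rw [hx _ _ h2 I (by have := card_le_univ I; omega)]
  simp

/-! ## Ordered products and determinants -/

/-- The ordered product over a finite set. -/
def ord {A : Type*} [Monoid A] (x : ι → A) (I : Finset ι) : A := ((I.sort (· ≤ ·)).map x).prod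

theorem ord_empty {A : Type*} [Monoid A] (x : ι → A) : ord x ∅ = 1 := by simp [ord]

theorem ord_insert_min {A : Type*} [Monoid A] (x : ι → A) {a : ι} {I : Finset ι}
    (h : ∀ b ∈ I, a < b) : ord x (insert a I) = x a * ord x I := by
  unfold ord
  rw [sort_insert _ (fun b hb => (h b hb).le) (fun ha => lt_irrefl _ (h a ha))]
  simp

theorem ord_congr {A : Type*} [Monoid A] {x y : ι → A} {I : Finset ι} (h : ∀ i ∈ I, x i = y i) :
    ord x I = ord y I := by
  unfold ord
  rw [List.map_congr_left fun i hi => h i ((mem_sort _).1 hi)]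

theorem cv_mul_ord (v : ι → ι → ℝ) (j : ι) (I : Finset ι) :
    cv (v j) * ord (fun i => cv (v i)) I =
      if j ∈ I then 0 else sg j I • ord (fun i => cv (v i)) (insert j I) := by
  induction I using Finset.induction_on_min with
  | empty => simp [sg_empty, ord]
  | insert a s ha ih =>
    have has : a ∉ s := fun h => lt_irrefl _ (ha a h)
    rw [ord_insert_min _ ha]
    rcases lt_trichotomy j a with h | h | h
    · have hj : ∀ b ∈ insert a s, j < b := fun b hb => by
        rcases mem_insert.1 hb with rfl | hb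
        · exact h
        · exact h.trans (ha b hb)
      rw [if_neg fun h' => lt_irrefl _ (hj j h'), ord_insert_min _ hj, ord_insert_min _ ha]
      have : sg j (insert a s) = 1 := by
        unfold sg
        rw [filter_eq_empty_iff.2 fun b hb => not_lt.2 (hj b hb).le]; simp
      rw [this, one_smul]
    · subst h
      rw [if_pos (mem_insert_self _ _), ← mul_assoc, cv_mul_self, zero_mul]
    · rw [← mul_assoc, cv_mul_cv, neg_mul, mul_assoc, ih]
      by_cases hjs : j ∈ s
      · simp [hjs]
      · have hj : j ∉ insert a s := fun h' => by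
          rcases mem_insert.1 h' with rfl | h'
          · exact lt_irrefl _ h
          · exact hjs h'
        rw [if_neg hjs, if_neg hj, insert_comm, ord_insert_min (a := a), sg_insert has, if_pos h,
          mul_smul_comm, neg_smul]
        intro b hb
        rcases mem_insert.1 hb with rfl | hb
        · exact h
        · exact ha b hb

theorem deg_ord (v : ι → ι → ℝ) (I : Finset ι) : Deg I.card (ord (fun i => cv (v i)) I) := by
  induction I using Finset.induction_on_min with
  | empty => rw [ord_empty]; exact Deg.one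
  | insert a s ha ih =>
    rw [ord_insert_min _ ha, card_insert_of_notMem fun h => lt_irrefl _ (ha a h), add_comm]
    exact (deg_cv _).mul ih

theorem ord_univ_eq (v : ι → ι → ℝ) (j : ι) : ord (fun i => cv (v i)) univ =
    sg j (univ.erase j) • (cv (v j) * ord (fun i => cv (v i)) (univ.erase j)) := by
  rw [cv_mul_ord, if_neg (notMem_erase j _), insert_erase (mem_univ j), smul_smul, sg_mul_self,
    one_smul]

theorem ord_update (v : ι → ι → ℝ) (j : ι) (a : ι → ℝ) [DecidableEq ι] :
    ord (fun i => cv (Function.update v j a i)) univ =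
      sg j (univ.filter (· ≠ j)) • (cv a * ord (fun i => cv (v i)) (univ.filter (· ≠ j))) := by
  have h : univ.filter (· ≠ j) = @Finset.erase ι LinearOrder.toDecidableEq univ j := by
    ext; simp
  rw [ord_univ_eq _ j, Function.update_self, h]
  rw [ord_congr (y := fun i => cv (v i))]
  intro i hi
  rw [Function.update_of_ne]
  simpa using hi

/-- The top coefficient of an ordered product, as an alternating map. -/
def topAlt : (ι → ℝ) [⋀^ι]→ₗ[ℝ] ℝ where
  toFun v := top (ord (fun i => cv (v i)) univ)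
  map_update_add' v j a b := by simp only [ord_update, map_add, add_mul, smul_add]
  map_update_smul' v j c a := by
    simp only [ord_update, map_smul, smul_mul_assoc, smul_eq_mul]; ring
  map_eq_zero_of_eq' v i j h hij := by
    change top (ord (fun i => cv (v i)) univ) = 0
    rw [ord_univ_eq _ j, ← h, cv_mul_ord, if_pos (by simpa using hij)]
    simp

theorem co_ev_ord_cr (I J : Finset ι) :
    co (ev (ord (cr : ι → Car ι) I)) J = if J = I then 1 else 0 := by
  induction I using Finset.induction_on_min generalizing J with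
  | empty => rw [ord_empty, ev_one, co_vac]
  | insert a s ha ih =>
    have has : a ∉ s := fun h => lt_irrefl _ (ha a h)
    rw [ord_insert_min _ ha, ev_mul, co_cr, ih]
    by_cases hJ : J = insert a s
    · subst hJ
      rw [if_pos (mem_insert_self _ _), erase_insert has, if_pos rfl, if_pos rfl, mul_one,
        sg_insert_self]
      unfold sg
      rw [filter_eq_empty_iff.2 fun b hb => not_lt.2 (ha b hb).le]; simp
    · rw [if_neg hJ]
      split_ifs with h1 h2
      · exact absurd (by rw [← h2, insert_erase h1]) hJ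
      · simp
      · rfl

/-- The top coefficient of the ordered product of the generators is one. -/
theorem top_ord_cr : top (ord (cr : ι → Car ι) univ) = 1 := by
  rw [top_apply, co_ev_ord_cr, if_pos rfl]

/-- The top coefficient of an ordered product of vectors is their determinant. -/
theorem top_ord (v : ι → ι → ℝ) : top (ord (fun i => cv (v i)) univ) = (Matrix.of v).det := by
  have h := congrArg (fun f : (ι → ℝ) [⋀^ι]→ₗ[ℝ] ℝ => f v)
    (AlternatingMap.eq_smul_basis_det (Pi.basisFun ℝ ι) topAlt)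
  simp only [AlternatingMap.smul_apply, Pi.basisFun_det_apply, smul_eq_mul] at h
  have h1 : topAlt (ι := ι) (Pi.basisFun ℝ ι) = 1 := by
    change top (ord (fun i => cv (Pi.basisFun ℝ ι i)) univ) = 1
    simp only [Pi.basisFun_apply, cv_single]
    exact top_ord_cr
  rw [h1, one_mul] at h
  exact h

theorem ord_univ_fin {A : Type*} [Monoid A] {m : ℕ} (x : Fin m → A) :
    ord x univ = (List.ofFn x).prod := by
  unfold ord
  rw [Fin.sort_univ, List.ofFn_eq_map]

theorem top_ofFn {m : ℕ} (v : Fin m → Fin m → ℝ) :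
    top (List.ofFn fun i => cv (v i)).prod = (Matrix.of v).det := by
  rw [← ord_univ_fin, top_ord]

/-! ## Change of basis -/

/-- Second quantisation of a matrix. -/
def gam (T : Matrix ι ι ℝ) : Car ι :=
  ap.symm (∑ I : Finset ι,
    (ContinuousLinearMap.proj (R := ℝ) (φ := fun _ : Finset ι => ℝ) I ∘L
      (co (ι := ι)).toContinuousLinearMap).smulRight (ev (ord (fun i => cv fun k => T k i) I)))

theorem ap_gam (T : Matrix ι ι ℝ) (ψ : Fk ι) :
    ap (gam T) ψ = ∑ I, co ψ I • ev (ord (fun i => cv fun k => T k i) I) := by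
  simp [gam]

theorem ev_gam (T : Matrix ι ι ℝ) : ev (gam T) = vac := by
  rw [ev_apply, ap_gam, sum_eq_single ∅] <;> simp +contextual [co_vac, ord_empty, ev_one]

theorem co_gam_univ (T : Matrix ι ι ℝ) (ψ : Fk ι) :
    co (ap (gam T) ψ) univ = T.det * co ψ univ := by
  rw [ap_gam, map_sum, Finset.sum_apply, sum_eq_single univ]
  · rw [map_smul, Pi.smul_apply, ← top_apply, top_ord, smul_eq_mul, mul_comm, ← Matrix.det_transpose T]
    rfl
  · intro I _ hI
    rw [map_smul, Pi.smul_apply, ← top_apply, (deg_ord _ I).top_eq_zero, smul_zero]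
    exact fun h => hI ((card_eq_iff_eq_univ I).1 h)
  · simp

theorem gam_mul_cr (T : Matrix ι ι ℝ) (j : ι) :
    gam T * cr j = cv (fun k => T k j) * gam T := by
  refine Car.ext fun ψ => ?_
  rw [ap_mul, ap_mul, ap_gam, ap_gam, map_sum]
  simp only [map_smul, ← ev_mul, co_cr]
  simp only [cv_mul_ord (fun i k => T k i) j]
  set u : Finset ι → Car ι := ord fun i => cv fun k => T k i
  have h1 : ∑ I : Finset ι, (if j ∈ I then sg j I * co ψ (I.erase j) else 0) • ev (u I) =
      ∑ I ∈ univ.filter (fun I : Finset ι => j ∈ I), (sg j I * co ψ (I.erase j)) • ev (u I) := by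
    rw [sum_filter]
    exact sum_congr rfl fun I _ => by split_ifs <;> simp
  have h2 : ∑ I : Finset ι, co ψ I • ev (if j ∈ I then 0 else sg j I • u (insert j I)) =
      ∑ I ∈ univ.filter (fun I : Finset ι => j ∉ I), co ψ I • ev (sg j I • u (insert j I)) := by
    rw [sum_filter]
    exact sum_congr rfl fun I _ => by split_ifs <;> simp
  rw [h1, h2]
  refine sum_nbij' (fun I => I.erase j) (fun I => insert j I) ?_ ?_ ?_ ?_ ?_
  · intro I _; simp
  · intro I _; simp
  · intro I hI; exact insert_erase (by simpa using hI)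
  · intro I hI; exact erase_insert (by simpa using hI)
  · intro I hI
    have hi : j ∈ I := by simpa using hI
    rw [insert_erase hi, sg_erase_self, map_smul, smul_smul, mul_comm]

/-- `y` is the image of `x` under the change of basis `T`. -/
def Rel (T : Matrix ι ι ℝ) (x y : Car ι) : Prop := gam T * x = y * gam T

variable {T : Matrix ι ι ℝ}

theorem Rel.top_eq {x y : Car ι} (h : Rel T x y) : top y = T.det * top x := by
  have h1 : ev (gam T * x) = ev (y * gam T) := congrArg ev h
  rw [ev_mul, ev_mul, ev_gam, ← ev_apply] at h1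
  rw [top_apply, ← h1, co_gam_univ, top_apply]

theorem Rel.one : Rel T 1 1 := by simp [Rel]

theorem Rel.zero : Rel T 0 0 := by simp [Rel]

theorem Rel.add {x y x' y' : Car ι} (h : Rel T x y) (h' : Rel T x' y') :
    Rel T (x + x') (y + y') := by
  unfold Rel at *; rw [mul_add, add_mul, h, h']

theorem Rel.smul {x y : Car ι} (h : Rel T x y) (c : ℝ) : Rel T (c • x) (c • y) := by
  unfold Rel at *; rw [mul_smul_comm, smul_mul_assoc, h]

theorem Rel.neg {x y : Car ι} (h : Rel T x y) : Rel T (-x) (-y) := by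
  unfold Rel at *; rw [mul_neg, neg_mul, h]

theorem Rel.sub {x y x' y' : Car ι} (h : Rel T x y) (h' : Rel T x' y') :
    Rel T (x - x') (y - y') := by
  unfold Rel at *; rw [mul_sub, sub_mul, h, h']

theorem Rel.mul {x y x' y' : Car ι} (h : Rel T x y) (h' : Rel T x' y') :
    Rel T (x * x') (y * y') := by
  unfold Rel at *; rw [← mul_assoc, h, mul_assoc, h', mul_assoc]

theorem Rel.pow {x y : Car ι} (h : Rel T x y) (n : ℕ) : Rel T (x ^ n) (y ^ n) := by
  induction n with
  | zero => simpa using Rel.one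
  | succ n ih => rw [pow_succ, pow_succ]; exact ih.mul h

theorem Rel.sum {X : Type*} {s : Finset X} {x y : X → Car ι} (h : ∀ k ∈ s, Rel T (x k) (y k)) :
    Rel T (∑ k ∈ s, x k) (∑ k ∈ s, y k) := by
  unfold Rel at *; rw [mul_sum, sum_mul]; exact sum_congr rfl h

theorem rel_cv (T : Matrix ι ι ℝ) (a : ι → ℝ) : Rel T (cv a) (cv (T.mulVec a)) := by
  have h : T.mulVec a = ∑ j, a j • fun k => T k j := by
    funext k
    simp [Matrix.mulVec, dotProduct, Finset.sum_apply, mul_comm]
  rw [h, map_sum, cv_eq]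
  exact Rel.sum fun j _ => by rw [map_smul]; exact Rel.smul (gam_mul_cr T j) _

theorem rel_w2 (T : Matrix ι ι ℝ) (M : ι → ι → ℝ) :
    Rel T (w2 M) (w2 fun i j => ∑ k, ∑ l, T i k * M k l * T j l) := by
  have h : (w2 fun i j => ∑ k, ∑ l, T i k * M k l * T j l) =
      ∑ k, cv (fun i => T i k) * cv (T.mulVec (M k)) := by
    rw [← w2_sum_mul]
    congr 1
    funext i j
    refine sum_congr rfl fun k _ => ?_
    simp only [Matrix.mulVec, dotProduct, mul_sum]
    exact sum_congr rfl fun l _ => by ring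
  rw [h, w2_eq']
  exact Rel.sum fun k _ => Rel.mul (gam_mul_cr T k) (rel_cv T _)

/-- Change of basis for the top form of a one-form and a two-form. -/
theorem top_change (T : Matrix ι ι ℝ) (θ : ι → ℝ) (M : ι → ι → ℝ) (n : ℕ) :
    top (cv (T.mulVec θ) * (w2 fun i j => ∑ k, ∑ l, T i k * M k l * T j l) ^ n) =
      T.det * top (cv θ * w2 M ^ n) :=
  ((rel_cv T θ).mul ((rel_w2 T M).pow n)).top_eq

end Vale.Agent.P184Z.Pf
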